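import Vale.Agent.P352.BW.Lm
import Vale.Agent.P352.BW.W1
import Vale.Agent.P352.BW.G1
import Vale.Agent.P352.BW.H234.Wd
import Vale.Agent.P352.BW.T.Tg
import Vale.Agent.P352.H48.Ln1

/-!
# P352 BW [W]: local nets without the regularity of the modular groups
-/

set_option linter.all false

noncomputable section

open MeasureTheory Filter Topology
open scoped ComplexConjugate InnerProductSpace BoundedContinuousFunction

namespace Vale.Agent.P352.BW

open Vale.Agent.P132 (ModData exists_modData)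
open UniformSpace (Completion)
open GF H246 H496 H755 H15

variable {D : Type*} [NormedAddCommGroup D] [InnerProductSpace ℂ D] {Q : Theory D}
  {A : (V → V) → D → D} {𝒜 : Set V → VonNeumannAlgebra (Completion D)}

namespace LNm

/-- the wedge algebras -/
theorem wal (N : LNm Q A 𝒜) {a b : V} (ha : IsNull a) (hb : IsNull b) (hab : GF.mdot a b = 1) :
    T.Wal Q a b (𝒜 (Wdg a b 0)) := by
  refine ⟨ha, hb, hab, ?_, ?_, ?_⟩
  · intro k Φ c f hΦ hf
    exact T.H732W.aff_sum (fun μ => N.fld _ _ f (hΦ.fld μ) hf) c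
  · intro k Φ c f hΦ hf
    refine T.H732W.aff_mono (M := 𝒜 (Wdg b a 0)) ?_
      (T.H732W.aff_sum (fun μ => N.fld _ _ f (hΦ.fld μ) hf) c)
    intro Y hY
    rw [VonNeumannAlgebra.commutant_commutant] at hY
    rw [VonNeumannAlgebra.mem_commutant_iff]
    intro X hX
    exact (VonNeumannAlgebra.mem_commutant_iff.1 (N.loc a b X ha hb hab hX) Y hY).symm
  · intro t X hX
    obtain ⟨Y, hY, h⟩ := N.cov 1 (T.bq a b t) 0 _ X hX one_pos (T.H732W.isLor_bq ha hb hab t)
    exact ⟨Y, N.mono _ _ (T.H732W.bq_wdg ha hb hab t) Y hY, h⟩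

/-- the vacuum is cyclic for the algebras of the nonempty open sets -/
theorem cyc (N : LNm Q A 𝒜) {O : Set V} (hO : IsOpen O) (hne : O.Nonempty) :
    Dense {z | ∃ X ∈ 𝒜 O, X (om Q) = z} :=
  rs_gen hO hne fun B f hB hf => N.fld O B f hB hf

/-- the vacuum is separating for the wedge algebras -/
theorem sep (N : LNm Q A 𝒜) {a b : V} (ha : IsNull a) (hb : IsNull b) (hab : GF.mdot a b = 1)
    (X : Completion D →L[ℂ] Completion D) (hX : X ∈ 𝒜 (Wdg a b 0)) (h0 : X (om Q) = 0) :
    X = 0 := by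
  have hba : GF.mdot b a = 1 := by rw [md_comm]; exact hab
  have hd := N.cyc (H234.isOpen_wdg b a) (H234.wdg_ne hb ha hba)
  ext z
  have hcl : IsClosed {z : Completion D | X z = 0} := isClosed_eq X.continuous continuous_const
  refine closure_minimal ?_ hcl (hd z)
  rintro _ ⟨Y, hY, rfl⟩
  have h2 := N.loc a b Y ha hb hab hY
  rw [VonNeumannAlgebra.mem_commutant_iff] at h2
  have h3 := congrArg (fun T : Completion D →L[ℂ] Completion D => T (om Q)) (h2 X hX)
  have h4 : X (Y (om Q)) = Y (X (om Q)) := h3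
  change X (Y (om Q)) = 0
  rw [h4, h0, map_zero]

/-- modular data of the regions -/
theorem modR (N : LNm Q A 𝒜) {a b : V} (ha : IsNull a) (hb : IsNull b) (hab : GF.mdot a b = 1)
    {c : ℝ} (hc : 0 ≤ c) : Nonempty (ModData (𝒜 (HM.Rg a b c)) (om Q)) := by
  refine exists_modData _ _ (H732G.norm_om Q) ?_ ?_
  · exact N.cyc (H732G.rg_open a b c) (H732G.rg_ne ha hb hab hc)
  · intro X hX h0
    refine N.sep ha hb hab X ?_ h0
    refine N.mono _ _ ?_ X hX
    rw [← HM.H584.Rg_zero]
    exact HM.H584.Rg_mono ha hb hab le_rfl hc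

/-- modular data of the wedges -/
theorem modW (N : LNm Q A 𝒜) {a b : V} (ha : IsNull a) (hb : IsNull b)
    (hab : GF.mdot a b = 1) : Nonempty (ModData (𝒜 (Wdg a b 0)) (om Q)) := by
  rw [← HM.H584.Rg_zero]
  exact N.modR ha hb hab le_rfl

/-- **The theorem of Bisognano and Wichmann**, if the vacuum is cyclic for the tensor fields -/
theorem bw (N : LNm Q A 𝒜) (hG : TfGen Q) (a b : V) (t : ℝ) (L : Ix → V)
    (E : ModData (𝒜 (Wdg a b 0)) (om Q)) (z : Completion D) (ha : IsNull a) (hb : IsNull b)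
    (hab : GF.mdot a b = 1) (hL : IsLor L)
    (h : ∀ x, sim 1 L 0 x = x + ((Real.exp (-(2 * Real.pi * t)) - 1) * GF.mdot b x) • a +
      ((Real.exp (2 * Real.pi * t) - 1) * GF.mdot a x) • b) : E.U t z = Ue Q 1 L 0 z := by
  have h1 : T.T1Stmt Q A := T.t1 Q A
  have hN : T.NStmt (Completion D) := T.n
  have hS : T.SStmt Q A := fun R => T.s (ublock R) h1 T.o T.m hN ablock R
  have hL' : L = T.bq a b t := by
    apply T.mat_ext
    intro x
    rw [h, T.bq, sim_bst]
  rw [hL']
  exact T.bw_wal1 (T.p h1 hS) h1 N.toRep hG E (N.wal ha hb hab) t z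

/-- the nets with regularity, in the form for modular data -/
theorem lnet (N : LNm Q A 𝒜) (hG : TfGen Q)
    (reg : ∀ a b (E : ModData (𝒜 (HM.Rg a b 1)) (om Q)) (v : D), IsNull a → IsNull b →
      GF.mdot a b = 1 → ∃ w : D,
        HasDerivAt (fun t : ℝ => E.U t (v : Completion D)) ((w : D) : Completion D) 0) :
    LNet Q A 𝒜 :=
  { N.toRep with
    fld := N.fld
    mono := N.mono
    cov := N.cov
    loc := fun a b ha hb hab X hX => N.loc a b X ha hb hab hX
    bw := fun a b t L E z ha hb hab hL h => N.bw hG a b t L E z ha hb hab hL h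
    reg := reg }

end LNm

/-- the local net of `LNt1` -/
theorem LNt1.lnm (N : LNt1 Q A 𝒜) : LNm Q A 𝒜 :=
  { N.toRep with
    fld := N.fld
    mono := N.mono
    cov := N.cov
    loc := N.loc }

theorem LNt1.smo (N : LNt1 Q A 𝒜) : Smo Q 𝒜 := N.reg

end Vale.Agent.P352.BW

end
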