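import Vale.Agent.P352.BW.H649.LcDefs
import Vale.Agent.P352.BW.H649.Lw
import Vale.Agent.P352.BW.S0.Grp0
import Vale.Agent.P352.BW.H234.ModU
import Vale.Agent.P352.BW.H26.G3
import Vale.Agent.P352.H48.Reg1

/-!
# P352 BW: the modular unitaries of the cut light cones
-/

set_option linter.all false

noncomputable section

open MeasureTheory Filter Topology
open scoped ComplexConjugate InnerProductSpace BoundedContinuousFunction

namespace Vale.Agent.P352.BW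

open Vale.Agent.P132 (ModData exists_modData)
open UniformSpace (Completion)
open GF H246 H496 H755 H15

namespace Lc

/-! ### geometry -/

lemma sgn {a z : V} (ha : IsNull a) (hz : 0 < GF.mdot z z) : 0 < GF.mdot a z ↔ 0 < z GF.o := by
  obtain ⟨h1, h2⟩ := ha
  have h2' : 0 < a 0 := h2
  rw [Reg1.md] at h1 hz
  rw [Reg1.md]
  show _ ↔ 0 < z 0
  have cs : (a 1 * z 1 + a 2 * z 2 + a 3 * z 3) ^ 2 ≤
      (a 1 ^ 2 + a 2 ^ 2 + a 3 ^ 2) * (z 1 ^ 2 + z 2 ^ 2 + z 3 ^ 2) := by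
    nlinarith [sq_nonneg (a 1 * z 2 - a 2 * z 1), sq_nonneg (a 1 * z 3 - a 3 * z 1),
      sq_nonneg (a 2 * z 3 - a 3 * z 2)]
  have ha2 : a 1 ^ 2 + a 2 ^ 2 + a 3 ^ 2 = a 0 ^ 2 := by nlinarith
  have hz2 : z 1 ^ 2 + z 2 ^ 2 + z 3 ^ 2 < z 0 ^ 2 := by nlinarith
  have ha0 : 0 < a 0 ^ 2 := by positivity
  have hlt : (a 1 * z 1 + a 2 * z 2 + a 3 * z 3) ^ 2 < (a 0 * z 0) ^ 2 := by
    rw [ha2] at cs
    calc _ ≤ a 0 ^ 2 * (z 1 ^ 2 + z 2 ^ 2 + z 3 ^ 2) := cs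
      _ < a 0 ^ 2 * z 0 ^ 2 := mul_lt_mul_of_pos_left hz2 ha0
      _ = _ := by ring
  have habs := sq_lt_sq.1 hlt
  constructor
  · intro h
    by_contra hz0
    have h3 : a 0 * z 0 ≤ 0 := mul_nonpos_of_nonneg_of_nonpos h2'.le (not_lt.1 hz0)
    rw [abs_of_nonpos h3] at habs
    have h4 := (abs_lt.1 habs).1
    linarith
  · intro h
    have h3 : 0 < a 0 * z 0 := mul_pos h2' h
    rw [abs_of_pos h3] at habs
    have h4 := (abs_lt.1 habs).2
    linarith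

lemma ct_sub (a : V) (t : ℝ) : Ct a t ⊆ Fc := fun _ h => h.1

lemma ct_mono (a : V) {t t' : ℝ} (h : t ≤ t') : Ct a t ⊆ Ct a t' := fun _ hz => ⟨hz.1, hz.2.trans_le h⟩

lemma isOpen_fc : IsOpen Fc := by
  have h1 : IsOpen {z : V | 0 < GF.mdot z z} := isOpen_lt continuous_const HM.H584.cont_sq
  have h2 : IsOpen {z : V | 0 < z GF.o} := isOpen_lt continuous_const (continuous_apply _)
  exact h1.inter h2

lemma isOpen_ct (a : V) (t : ℝ) : IsOpen (Ct a t) :=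
  isOpen_fc.inter (isOpen_lt (HM.H584.cont_md a) continuous_const)

lemma sim_tr (x z : V) : sim 1 GF.one x z = z + x := HM.sim_tr x z

section

variable {a b : V} (ha : IsNull a) (hb : IsNull b) (hab : GF.mdot a b = 1) {t : ℝ} (ht : 0 < t)

include ha hb hab ht

lemma mem_rg (z : V) : z ∈ HM.Rg a b (1 / (2 * t)) ↔ z + t • b ∈ Ct a t := by
  have hba : GF.mdot b a = 1 := by rw [Reg1.md_comm]; exact hab
  have e1 : GF.mdot a (z + t • b) = GF.mdot a z + t := by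
    rw [md_add, md_smul, hab, mul_one]
  have e2 : GF.mdot (z + t • b) (z + t • b) = GF.mdot z z + 2 * t * GF.mdot b z := by
    have h0 := hb.1
    rw [Reg1.md] at h0 ⊢
    rw [Reg1.md z z, Reg1.md b z]
    simp only [Pi.add_apply, Pi.smul_apply, smul_eq_mul]
    linear_combination t ^ 2 * h0
  have e3 : 0 < 1 + 2 * (1 / (2 * t)) * GF.mdot a z ↔ 0 < GF.mdot a z + t := by
    have : 1 + 2 * (1 / (2 * t)) * GF.mdot a z = (GF.mdot a z + t) / t := by field_simp; ring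
    rw [this]
    exact div_pos_iff_of_pos_right ht
  have e4 : 0 < GF.mdot b z + 1 / (2 * t) * GF.mdot z z ↔
      0 < GF.mdot z z + 2 * t * GF.mdot b z := by
    have : GF.mdot b z + 1 / (2 * t) * GF.mdot z z =
        (GF.mdot z z + 2 * t * GF.mdot b z) / (2 * t) := by field_simp; ring
    rw [this]
    exact div_pos_iff_of_pos_right (by positivity)
  constructor
  · rintro ⟨h1, h2, h3⟩
    have h3' := e4.1 h3
    have h2' := e3.1 h2
    have h5 : 0 < GF.mdot (z + t • b) (z + t • b) := by rw [e2]; exact h3'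
    refine ⟨⟨h5, (sgn ha h5).1 (by rw [e1]; exact h2')⟩, ?_⟩
    rw [e1]; linarith
  · rintro ⟨⟨h5, h6⟩, h7⟩
    have h8 := (sgn ha h5).2 h6
    rw [e1] at h7 h8
    rw [e2] at h5
    exact ⟨by linarith, e3.2 h8, e4.2 h5⟩

lemma img : sim 1 GF.one (t • b) '' HM.Rg a b (1 / (2 * t)) = Ct a t := by
  ext z
  constructor
  · rintro ⟨y, hy, rfl⟩
    rw [sim_tr]
    exact (mem_rg ha hb hab ht y).1 hy
  · intro hz
    refine ⟨z - t • b, (mem_rg ha hb hab ht _).2 (by rwa [sub_add_cancel]), ?_⟩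
    rw [sim_tr, sub_add_cancel]

lemma img' : sim 1 GF.one (-(t • b)) '' Ct a t = HM.Rg a b (1 / (2 * t)) := by
  ext z
  constructor
  · rintro ⟨y, hy, rfl⟩
    rw [sim_tr]
    refine (mem_rg ha hb hab ht _).2 ?_
    rwa [neg_add_cancel_right]
  · intro hz
    refine ⟨z + t • b, (mem_rg ha hb hab ht z).1 hz, ?_⟩
    rw [sim_tr, add_neg_cancel_right]

lemma ct_ne : (Ct a t).Nonempty := by
  rw [← img ha hb hab ht]
  exact (H732G.rg_ne ha hb hab (by positivity)).image _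

end

lemma sim_dil (s : ℝ) (z : V) : sim s GF.one 0 z = s • z := by
  rw [sim_s, HM.sim_tr, add_zero]

lemma dil_fc {l : ℝ} (hl : 0 < l) : sim l GF.one 0 '' Fc = Fc := by
  have key : ∀ l : ℝ, 0 < l → ∀ z ∈ Fc, l • z ∈ Fc := by
    rintro l hl z ⟨h1, h2⟩
    refine ⟨?_, ?_⟩
    · rw [md_smul, md_smul_l]
      positivity
    · show 0 < l * z GF.o
      positivity
  ext z
  constructor
  · rintro ⟨y, hy, rfl⟩
    rw [sim_dil]
    exact key l hl y hy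
  · intro hz
    refine ⟨l⁻¹ • z, key _ (inv_pos.2 hl) z hz, ?_⟩
    rw [sim_dil, smul_smul, mul_inv_cancel₀ hl.ne', one_smul]

lemma dil_ct {l : ℝ} (hl : 0 < l) (a : V) (t : ℝ) : sim l GF.one 0 '' Ct a t = Ct a (l * t) := by
  have hF := dil_fc hl
  ext z
  constructor
  · rintro ⟨y, hy, rfl⟩
    refine ⟨by rw [← hF]; exact ⟨y, hy.1, rfl⟩, ?_⟩
    rw [sim_dil, md_smul]
    exact mul_lt_mul_of_pos_left hy.2 hl
  · rintro ⟨hz, hzt⟩
    rw [← hF] at hz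
    obtain ⟨y, hy, rfl⟩ := hz
    refine ⟨y, ⟨hy, ?_⟩, rfl⟩
    rw [sim_dil, md_smul] at hzt
    exact lt_of_mul_lt_mul_left hzt hl.le

end Lc

variable {D : Type*} [NormedAddCommGroup D] [InnerProductSpace ℂ D] {Q : Theory D}
  {A : (V → V) → D → D} {𝒜 : Set V → VonNeumannAlgebra (Completion D)}
  {S : V → ℝ → Completion D →L[ℂ] Completion D}

namespace LNm

/-- the similitudes map the algebras onto each other -/
theorem img_alg (N : LNm Q A 𝒜) {s : ℝ} {L : Ix → V} {y : V} (hs : 0 < s) (hL : IsLor L)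
    {O O' : Set V} (hO : sim s L y '' O = O') :
    (∀ X ∈ 𝒜 O, ∃ Y ∈ 𝒜 O', ∀ z, Y (Ue Q s L y z) = Ue Q s L y (X z)) ∧
    ∀ Y ∈ 𝒜 O', ∃ X ∈ 𝒜 O, ∀ z, Y (Ue Q s L y z) = Ue Q s L y (X z) := by
  have hU : UStmt Q A := ublock N.toRep
  refine ⟨fun X hX => ?_, fun Y hY => ?_⟩
  · obtain ⟨Y, hY, h⟩ := N.cov s L y O X hX hs hL
    rw [hO] at hY
    exact ⟨Y, hY, h⟩
  · obtain ⟨X, hX, hXe⟩ := N.cov s⁻¹ (linv L) (yinv s L y) O' Y hY (inv_pos.2 hs)
      (isLor_linv hL)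
    rw [← hO, img_left hs hL] at hX
    refine ⟨X, hX, fun z => ?_⟩
    have h3 := hXe (Ue Q s L y z)
    rw [Ue_left hU hs hL] at h3
    rw [h3, Ue_right hU hs hL]

/-- naturality of the modular groups under the similitudes -/
theorem nat_img (N : LNm Q A 𝒜) {s : ℝ} {L : Ix → V} {y : V} (hs : 0 < s) (hL : IsLor L)
    {O O' : Set V} (hO : sim s L y '' O = O') (E : ModData (𝒜 O) (om Q))
    (E' : ModData (𝒜 O') (om Q)) (t : ℝ) (z : Completion D) :
    Ue Q s L y (E.U t z) = E'.U t (Ue Q s L y z) := by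
  have hU : UStmt Q A := ublock N.toRep
  obtain ⟨W, hW⟩ := hU.lin s L y hs hL
  have hξ : W (om Q) = om Q := by rw [hW, hU.vac s L y hs hL]
  obtain ⟨h1, h2⟩ := N.img_alg hs hL hO
  have h3 := eblock (𝒜 O) (𝒜 O') (om Q) E E' W hξ
    (fun X hX => by
      obtain ⟨Y, hY, h⟩ := h1 X hX
      exact ⟨Y, hY, fun z => by rw [hW, hW, h]⟩)
    (fun Y hY => by
      obtain ⟨X, hX, h⟩ := h2 Y hY
      exact ⟨X, hX, fun z => by rw [hW, hW, h]⟩) t z
  rwa [hW, hW] at h3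

/-- the vacuum is separating for the algebras of the cut light cones -/
theorem sepC (N : LNm Q A 𝒜) {a b : V} (ha : IsNull a) (hb : IsNull b) (hab : GF.mdot a b = 1)
    {t : ℝ} (ht : 0 < t) (X : Completion D →L[ℂ] Completion D) (hX : X ∈ 𝒜 (Ct a t))
    (h0 : X (om Q) = 0) : X = 0 := by
  have hU : UStmt Q A := ublock N.toRep
  obtain ⟨Y, hY, h⟩ := (N.img_alg (y := -(t • b)) one_pos isLor_one (Lc.img' ha hb hab ht)).1 X hX
  obtain ⟨W, hW⟩ := hU.lin 1 GF.one (-(t • b)) one_pos isLor_one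
  have hY0 : Y (om Q) = 0 := by
    have h1 := h (om Q)
    rw [hU.vac 1 GF.one _ one_pos isLor_one, h0, ← hW, map_zero] at h1
    exact h1
  have hYW : Y ∈ 𝒜 (Wdg a b 0) := by
    refine N.mono _ _ ?_ Y hY
    rw [← HM.H584.Rg_zero]
    exact HM.H584.Rg_mono ha hb hab le_rfl (by positivity)
  have hYz := N.sep ha hb hab Y hYW hY0
  ext z
  have h1 := h z
  rw [hYz, ← hW, ← hW] at h1
  have h2 : W (X z) = 0 := h1.symm
  have h3 : X z = 0 := by
    apply W.injective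
    rw [h2, map_zero]
  exact h3

/-- modular data of the cut light cones -/
theorem modC (N : LNm Q A 𝒜) {a b : V} (ha : IsNull a) (hb : IsNull b) (hab : GF.mdot a b = 1)
    {t : ℝ} (ht : 0 < t) : Nonempty (ModData (𝒜 (Ct a t)) (om Q)) :=
  exists_modData _ _ (H732G.norm_om Q) (N.cyc (Lc.isOpen_ct a t) (Lc.ct_ne ha hb hab ht))
    (N.sepC ha hb hab ht)

/-- **The modular unitaries of the cut light cones** -/
theorem modC_eq (N : LNm Q A 𝒜) (h : Grp0 Q 𝒜 S) {a b : V} (ha : IsNull a) (hb : IsNull b)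
    (hab : GF.mdot a b = 1) {t : ℝ} (ht : 0 < t) (E : ModData (𝒜 (Ct a t)) (om Q)) (s : ℝ)
    (z : Completion D) : E.U s z = Ue Q 1 GF.one (t • b)
      (S a ((1 - Real.exp (-(2 * Real.pi * s))) / (2 * t))
        (Ue Q 1 (T.bq a b s) 0 (Ue Q 1 GF.one (-(t • b)) z))) := by
  have hU : UStmt Q A := ublock N.toRep
  have hc : (0 : ℝ) ≤ 1 / (2 * t) := by positivity
  obtain ⟨E'⟩ := N.modR ha hb hab hc
  obtain ⟨J, hJ⟩ := h.mod a b (1 / (2 * t)) (T.bq a b) ha hb hab hc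
    (fun s => T.H732W.isLor_bq ha hb hab s) (fun s x => T.H732W.sim_bq a b s x)
  have h1 : ∀ z, E'.U s z = S a ((1 - Real.exp (-(2 * Real.pi * s))) / (2 * t))
      (Ue Q 1 (T.bq a b s) 0 z) := by
    intro z
    rw [← isMod_unique E' hJ s z]
    show S a (1 / (2 * t) * (1 - Real.exp (-(2 * Real.pi * s)))) _ = _
    congr 2
    ring
  have h2 := N.nat_img (y := t • b) one_pos isLor_one (Lc.img ha hb hab ht) E' E s
    (Ue Q 1 GF.one (-(t • b)) z)
  have h3 : Ue Q 1 GF.one (t • b) (Ue Q 1 GF.one (-(t • b)) z) = z := by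
    rw [H26.Ue_tt hU, add_neg_cancel, Ue_one]
  rw [h3, h1] at h2
  exact h2.symm

/-- the dilations map the algebras of the cut light cones onto each other -/
theorem dilC (N : LNm Q A 𝒜) {l : ℝ} (hl : 0 < l) (a : V) (t : ℝ) :
    (∀ X ∈ 𝒜 (Ct a t), ∃ Y ∈ 𝒜 (Ct a (l * t)), ∀ z,
      Y (Ue Q l GF.one 0 z) = Ue Q l GF.one 0 (X z)) ∧
    ∀ Y ∈ 𝒜 (Ct a (l * t)), ∃ X ∈ 𝒜 (Ct a t), ∀ z,
      Y (Ue Q l GF.one 0 z) = Ue Q l GF.one 0 (X z) :=
  N.img_alg hl isLor_one (Lc.dil_ct hl a t)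

/-- the dilations map the algebra of the light cone onto itself -/
theorem dilF (N : LNm Q A 𝒜) {l : ℝ} (hl : 0 < l) :
    (∀ X ∈ 𝒜 Fc, ∃ Y ∈ 𝒜 Fc, ∀ z, Y (Ue Q l GF.one 0 z) = Ue Q l GF.one 0 (X z)) ∧
    ∀ Y ∈ 𝒜 Fc, ∃ X ∈ 𝒜 Fc, ∀ z, Y (Ue Q l GF.one 0 z) = Ue Q l GF.one 0 (X z) :=
  N.img_alg hl isLor_one (Lc.dil_fc hl)

/-- the algebras of the cut light cones lie in the algebra of the light cone -/
theorem ct_fc (N : LNm Q A 𝒜) (a : V) (t : ℝ) : ∀ X ∈ 𝒜 (Ct a t), X ∈ 𝒜 Fc :=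
  N.mono _ _ (Lc.ct_sub a t)

/-- naturality of the modular unitaries of the cut light cones under the dilations -/
theorem dil_nat (N : LNm Q A 𝒜) {l : ℝ} (hl : 0 < l) {a : V} {t : ℝ}
    (E : ModData (𝒜 (Ct a t)) (om Q)) (E' : ModData (𝒜 (Ct a (l * t))) (om Q)) (s : ℝ)
    (z : Completion D) : Ue Q l GF.one 0 (E.U s z) = E'.U s (Ue Q l GF.one 0 z) :=
  N.nat_img hl isLor_one (Lc.dil_ct hl a t) E E' s z

end LNm

end Vale.Agent.P352.BW

end
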