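import Vale.Agent.P352.BW.Md

namespace Vale.Agent.P352.BW

open GF

/-- The forward light cone. -/
def Fc : Set V := {z | 0 < GF.mdot z z ∧ 0 < z GF.o}

/-- The part `a·z < t` of the forward light cone. -/
def Ct (a : V) (t : ℝ) : Set V := {z | z ∈ Fc ∧ GF.mdot a z < t}

end Vale.Agent.P352.BW
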