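import Vale.Agent.P352.BW.H209.Hb
import Vale.Agent.P352.BW.H728.Geo
import Vale.Agent.P352.BW.H649.Lc

/-!
# P352 BW: the null deformations map the algebra of the light cone onto the algebras of the cut
light cones
-/

set_option linter.all false

noncomputable section

open MeasureTheory Filter Topology
open scoped ComplexConjugate InnerProductSpace BoundedContinuousFunction

namespace Vale.Agent.P352.BW

open Vale.Agent.P132 (ModData expB jconj exists_modData)
open UniformSpace (Completion)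
open GF H246 H496 H755 H15

namespace H649G

section abs

variable {H : Type*} [NormedAddCommGroup H] [InnerProductSpace ℂ H] [CompleteSpace H]
  {M N : VonNeumannAlgebra H} {ξ : H}

lemma cancelU (E : ModData M ξ) {a b : H →L[ℂ] H} {t : ℝ} (h : a * E.U t = b * E.U t) :
    a = b := by
  have h1 := congrArg (fun T => T * E.U (-t)) h
  simpa only [mul_assoc, E.U_mul_U_neg, mul_one] using h1

/-- **The unitary group of a half-sided modular inclusion of the other sign maps `M` onto `N`.** -/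
theorem img_p (E : ModData M ξ) (E' : ModData N ξ) (hle : ∀ x ∈ N, x ∈ M)
    (hm : ∀ t : ℝ, 0 ≤ t → ∀ x ∈ N, E.sg t x ∈ N) {S : ℝ → H →L[ℂ] H} (hp : H209.Hp E E' S)
    (X : H →L[ℂ] H) : X ∈ M ↔ S (-1) * X * S 1 ∈ N := by
  have hs : Hsm (H209.mdc E E) (H209.mdc E E') := by
    refine ⟨fun x hx => hle _ hx, fun t ht x hx => ?_⟩
    rw [H209.mem_cj, ModData.sg, E.jconj_mul, E.jconj_mul, H209.mdc_U, H209.mdc_U, H209.jc_jc,
      H209.jc_jc]
    exact hm (-t) (by linarith) _ hx
  obtain ⟨K, h⟩ := fS _ _ hs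
  have e1 : ∀ c : ℝ, -1 < c → S c = jconj E.J (K (-c)) := by
    intro c hc
    have h2 : Real.exp (2 * Real.pi * H209.sp c) = 1 + c := H209.exp_sp (by linarith)
    have h1 := congrArg (jconj E.J) (h.mod (-(H209.sp c)))
    rw [E.jconj_mul, H209.mdc_U, H209.mdc_U, H209.jc_jc, H209.jc_jc, neg_neg,
      show -(2 * Real.pi * -(H209.sp c)) = 2 * Real.pi * H209.sp c by ring, h2] at h1
    have h3 := hp.mod (H209.sp c)
    rw [h2] at h3
    rw [h3] at h1
    have h4 := cancelU E h1
    rw [show 1 + c - 1 = c by ring, show 1 - (1 + c) = -c by ring] at h4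
    exact h4
  have e2 : S 1 = jconj E.J (K (-1)) := e1 1 (by norm_num)
  have e3 : S (-1) = jconj E.J (K 1) := by
    rw [← hp.star, e2, E.star_jconj, h.star, neg_neg]
  have h5 := H728.img h tk (fun x hx => hle _ hx) (jconj E.J X)
  rw [H209.mem_cj, H209.mem_cj, H209.jc_jc, E.jconj_mul, E.jconj_mul, H209.jc_jc] at h5
  rw [h5, e2, e3]

end abs

section sep

variable {H : Type*} [NormedAddCommGroup H] [InnerProductSpace ℂ H] [CompleteSpace H]
  {M : VonNeumannAlgebra H} {ξ : H} {V : ℝ → H → H} {J : H → H}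

lemma star_zero (h : IsMod M ξ V J) {X : H →L[ℂ] H} (hX : X ∈ M) (h0 : X ξ = 0) :
    star X ξ = 0 := by
  have hV : ∀ t, V t 0 = 0 := fun t => (H234U.VW h t).map_zero
  have h1 : V 0 (J (star X ξ)) = 0 := by
    refine ext_inner_left ℂ fun y => ?_
    obtain ⟨F, h1, h2, h3⟩ := h.kms X hX y
    have hB : H234U.Bd F := ⟨h1, by
      obtain ⟨C, hC⟩ := h2
      exact ⟨C, fun z hz => hC z hz.1 hz.2⟩⟩
    have h4 := H234U.uniq0 hB (fun t => by rw [(h3 t).1, h0, hV, inner_zero_right])
      (H234U.low_mem 0)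
    rw [(h3 0).2] at h4
    rw [h4, inner_zero_right]
  rw [H234U.V_zero h] at h1
  have h2 := H234U.J_norm h (star X ξ)
  rw [h1, norm_zero] at h2
  exact norm_eq_zero.1 h2.symm

/-- a cyclic vector with modular unitaries is separating -/
theorem sep_of_isMod (h : IsMod M ξ V J) (hcyc : Dense {z : H | ∃ X ∈ M, X ξ = z})
    (X : H →L[ℂ] H) (hX : X ∈ M) (h0 : X ξ = 0) : X = 0 := by
  have h1 : ∀ Z ∈ M, star X (Z ξ) = 0 := by
    intro Z hZ
    have h2 : (star Z * X) ξ = 0 := by
      show star Z (X ξ) = 0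
      rw [h0, map_zero]
    have h3 := star_zero h (mul_mem (star_mem hZ) hX) h2
    rw [star_mul, star_star] at h3
    exact h3
  have h2 : star X = 0 := by
    ext z
    have hcl : IsClosed {z : H | star X z = (0 : H →L[ℂ] H) z} :=
      isClosed_eq (star X).continuous continuous_const
    have hsub : {z : H | ∃ X ∈ M, X ξ = z} ⊆ {z : H | star X z = (0 : H →L[ℂ] H) z} := by
      rintro _ ⟨Z, hZ, rfl⟩
      exact h1 Z hZ
    exact hcl.closure_subset_iff.2 hsub (hcyc z)
  rw [← star_star X, h2, _root_.star_zero]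

end sep

end H649G

variable {D : Type*} [NormedAddCommGroup D] [InnerProductSpace ℂ D] {Q : Theory D}
  {A : (V → V) → D → D} {𝒜 : Set V → VonNeumannAlgebra (Completion D)}
  {S : V → ℝ → Completion D →L[ℂ] Completion D}

namespace Lc

lemma fc_ne : Fc.Nonempty := by
  refine ⟨Pi.single 0 1, ?_, ?_⟩
  · rw [Reg1.md]
    simp
  · show (0 : ℝ) < (Pi.single 0 1 : V) 0
    simp

end Lc

namespace LNm

/-- modular data of the light cone -/
theorem modF (N : LNm Q A 𝒜) {V : ℝ → Completion D → Completion D}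
    {J : Completion D → Completion D} (hJ : IsMod (𝒜 Fc) (om Q) V J) :
    ∃ E : ModData (𝒜 Fc) (om Q), ∀ t z, E.U t z = V t z := by
  have hc := N.cyc Lc.isOpen_fc Lc.fc_ne
  obtain ⟨E⟩ := exists_modData _ _ (H732G.norm_om Q) hc (H649G.sep_of_isMod hJ hc)
  exact ⟨E, fun t z => (isMod_unique E hJ t z).symm⟩

/-- **The null deformations map the algebra of the light cone onto the algebras of the cut light
cones.** -/
theorem geoC_of (N : LNm Q A 𝒜) (h : Grp0 Q 𝒜 S) {J : Completion D → Completion D}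
    (hJ : IsMod (𝒜 Fc) (om Q) (fun t z => Ue Q (Real.exp (-(2 * Real.pi * t))) GF.one 0 z) J)
    {a b : V} (ha : IsNull a) (hb : IsNull b) (hab : GF.mdot a b = 1)
    (hR : ∀ (r t : ℝ) (L : Ix → V) z, 0 < t → 0 < 1 + r * t → IsLor L →
      (∀ x, sim 1 L 0 x = x + (((1 + r * t)⁻¹ - 1) * GF.mdot b x) • a +
        (r * t * GF.mdot a x) • b) →
      S a (r / 2) z = Ue Q 1 GF.one (t • b) (S a (r / (2 * (1 + r * t)))
        (Ue Q 1 L 0 (Ue Q 1 GF.one (-(t • b)) (Ue Q (1 + r * t) GF.one 0 z)))))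
    {c : ℝ} (hc : 0 < c) (X : Completion D →L[ℂ] Completion D) :
    X ∈ 𝒜 Fc ↔ S a (-c) * X * S a c ∈ 𝒜 (Ct a (1 / (2 * c))) := by
  obtain ⟨E, hE⟩ := N.modF hJ
  have ht : 0 < 1 / (2 * c) := by positivity
  set t := 1 / (2 * c) with htd
  have hct : 1 / (2 * t) = c := by
    rw [htd]
    field_simp
  obtain ⟨E'⟩ := N.modC ha hb hab ht
  have hle : ∀ X ∈ 𝒜 (Ct a t), X ∈ 𝒜 Fc := N.ct_fc a t
  have hm : ∀ s : ℝ, 0 ≤ s → ∀ X ∈ 𝒜 (Ct a t), E.sg s X ∈ 𝒜 (Ct a t) := by
    intro s hs X hX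
    obtain ⟨Y, hY, e⟩ := (N.dilC (Real.exp_pos (-(2 * Real.pi * s))) a t).1 X hX
    have h1 : E.sg s X = Y := by
      ext z
      have h2 := e (E.U (-s) z)
      rw [← hE, ← hE, E.U_apply_neg] at h2
      rw [ModData.sg_apply]
      exact h2.symm
    rw [h1]
    refine N.mono _ _ (Lc.ct_mono a ?_) Y hY
    have h3 : Real.exp (-(2 * Real.pi * s)) ≤ 1 := by
      rw [Real.exp_le_one_iff]
      have := Real.pi_pos
      have : 0 ≤ 2 * Real.pi * s := by positivity
      linarith
    nlinarith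
  obtain ⟨S', hp⟩ := H209.hp_of E E' hle hm
  -- `S' 1 = S a c`
  have key : ∀ r : ℝ, -1 < r → ∀ z, S' r z = S a (r / (2 * t)) z := by
    intro r hr z
    set s := H209.sp r with hs
    have e2 : Real.exp (2 * Real.pi * s) = 1 + r := H209.exp_sp (by linarith)
    have e3 : Real.exp (-(2 * Real.pi * s)) = (1 + r)⁻¹ := H209.exp_neg_sp (by linarith)
    have hrt : r / t * t = r := div_mul_cancel₀ _ ht.ne'
    have h1 := hR (r / t) t (T.bq a b s) z ht (by rw [hrt]; linarith)
      (T.H732W.isLor_bq ha hb hab s) (fun x => by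
        rw [T.H732W.sim_bq, e2, e3, hrt]
        congr 3
        ring)
    rw [hrt] at h1
    have h2 := hp.mod s
    have h3 := N.modC_eq h ha hb hab ht E' s (Ue Q (1 + r) GF.one 0 z)
    have h4 : (1 - Real.exp (-(2 * Real.pi * s))) / (2 * t) = r / t / (2 * (1 + r)) := by
      rw [e3]
      have : 1 + r ≠ 0 := by linarith
      field_simp
      ring
    rw [h4, ← h1, h2, e2] at h3
    have h5 : E.U s (Ue Q (1 + r) GF.one 0 z) = z := by
      have h6 : Ue Q (1 + r) GF.one 0 z = E.U (-s) z := by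
        rw [hE, show -(2 * Real.pi * -s) = 2 * Real.pi * s by ring, e2]
      rw [h6, E.U_apply_neg]
    have h7 : (S' (1 + r - 1) * E.U s) (Ue Q (1 + r) GF.one 0 z) = S' r z := by
      show S' (1 + r - 1) (E.U s (Ue Q (1 + r) GF.one 0 z)) = _
      rw [h5, add_sub_cancel_left]
    rw [h7] at h3
    rw [h3]
    congr 2
    field_simp
  have k1 : S' 1 = S a c := by
    ext z
    rw [key 1 (by norm_num) z, hct]
  have k2 : S' (-1) = S a (-c) := by
    have h1 : S' (-1) * S' 1 = 1 := by rw [← hp.add, neg_add_cancel, hp.zero]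
    have h2 : S a c * S a (-c) = 1 := by rw [← h.add a _ _ ha, add_neg_cancel, h.zero a ha]
    calc S' (-1) = S' (-1) * (S a c * S a (-c)) := by rw [h2, mul_one]
      _ = (S' (-1) * S' 1) * S a (-c) := by rw [k1, mul_assoc]
      _ = _ := by rw [h1, one_mul]
  rw [H649G.img_p E E' hle hm hp X, k1, k2]

end LNm

end Vale.Agent.P352.BW

end
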