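import Vale.Agent.P352.BW.H649.Lw
import Vale.Agent.P352.BW.H728.Der

/-!
# P352 BW: the unitary groups of special conformal type imply the regularity
-/

set_option linter.all false

noncomputable section

open MeasureTheory Filter Topology

namespace Vale.Agent.P352.BW

open GF H246 H496 H755 H15
open UniformSpace (Completion)
open Vale.Agent.P132 (ModData)

namespace H649I

/-- block U: uniqueness of the modular unitaries -/
def UqStmt (H : Type*) [NormedAddCommGroup H] [InnerProductSpace ℂ H] [CompleteSpace H] : Prop :=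
  ∀ (M : VonNeumannAlgebra H) (ξ : H) (E : ModData M ξ) (V : ℝ → H → H) (J : H → H),
    IsMod M ξ V J → ∀ t x, V t x = E.U t x

variable {D : Type*} [NormedAddCommGroup D] [InnerProductSpace ℂ D]
variable {Q : Theory D} {A : (V → V) → D → D} {𝒜 : Set V → VonNeumannAlgebra (Completion D)}
  {G : V → D → D} {S : V → ℝ → Completion D →L[ℂ] Completion D}

lemma exists_null_pair : ∃ a b : V, IsNull a ∧ IsNull b ∧ GF.mdot a b = 1 := by
  have ha : IsNull (fun m : Ix => if m = 0 then (1 : ℝ) else if m = 1 then 1 else 0) := by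
    refine ⟨?_, ?_⟩
    · simp [GF.mdot, GF.eta, Fin.sum_univ_four, GF.o]
    · simp [GF.o]
  obtain ⟨b, hb, hab⟩ := H755.exists_dual ha
  exact ⟨_, b, ha, hb, hab⟩

/-- the modular unitaries of all regions are differentiable on `D` -/
theorem der_all (hu : UqStmt (Completion D)) (hG : TfGen Q) (N : LNm Q A 𝒜)
    (h : Grp Q 𝒜 G S) {a b : V} (ha : IsNull a) (hb : IsNull b) (hab : GF.mdot a b = 1) {c : ℝ}
    (hc : 0 ≤ c) {U : ℝ → Completion D → Completion D} {J : Completion D → Completion D}
    (hM : IsMod (𝒜 (HM.Rg a b c)) (om Q) U J) (x : D) :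
    HasDerivAt (fun t : ℝ => U t (x : Completion D))
      ((Complex.I • (A (fun z => (2 * Real.pi) • (GF.mdot a z • b - GF.mdot b z • a)) x +
        ((2 * Real.pi * c : ℝ) : ℂ) • G a x) : D) : Completion D) 0 := by
  obtain ⟨E⟩ := N.modW ha hb hab
  obtain ⟨E'⟩ := N.modR ha hb hab hc
  have h1 := h.der_mod (ublock N.toRep) N.toRep (N.bw hG) ha hb hab hc E E' x
  have e : (fun t : ℝ => U t (x : Completion D)) = fun t : ℝ => E'.U t (x : Completion D) :=
    funext fun t => hu _ _ E' U J hM t _
  rw [e]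
  exact h1

/-- the unitary groups imply the regularity -/
theorem smo_of (hu : UqStmt (Completion D)) (hG : TfGen Q) (N : LNm Q A 𝒜)
    (h : Grp Q 𝒜 G S) : Smo Q 𝒜 := by
  obtain ⟨a, b, ha, hb, hab⟩ := exists_null_pair
  exact ⟨a, b, ha, hb, hab, fun V J v hM =>
    ⟨_, der_all hu hG N h ha hb hab zero_le_one hM v⟩⟩

end H649I

end Vale.Agent.P352.BW

end
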